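import Mathlib
import Vale.Agent.P322.Main

namespace Vale.Agent.Results.P322.Coordinatewise

open Finset Vale.Agent.P322

/-- **The coordinatewise Courtade-Kumar inequality for all Boolean functions.**
The cube is `Fin n → Bool`; `joint f ε i u v = P(f(X) = u, Y_i = v)` where `X` is uniform and `Y_i`
is `X_i` flipped with probability `ε`; `mutualInfo` is the mutual information in bits of a joint law
on `Bool × Bool`; `h2` is the binary entropy in bits.

* (1) `∑ i, I(f(X); Y_i) ≤ 1 - h2 ε` for every Boolean `f` (balanced or not), `0 ≤ ε ≤ 1/2`;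
* (2) the sharper form `(1 - (E f)^2) ∑ i, I(f(X); Y_i) ≤ (∑ i, \hat f({i})^2) (1 - h2 ε)`,
  with `f` read as `±1`-valued (`true ↦ 1`, `false ↦ -1`). -/
theorem result :
    (∀ (n : ℕ) (f : (Fin n → Bool) → Bool) (ε : ℝ), 0 ≤ ε → ε ≤ 1 / 2 →
      ∑ i, mutualInfo (joint f ε i) ≤ 1 - h2 ε) ∧
    (∀ (n : ℕ) (f : (Fin n → Bool) → Bool) (ε : ℝ), 0 ≤ ε → ε ≤ 1 / 2 →
      (1 - ((∑ x : Fin n → Bool, (if f x then (1 : ℝ) else -1)) / 2 ^ n) ^ 2)
          * ∑ i, mutualInfo (joint f ε i)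
        ≤ (∑ i : Fin n, ((∑ x : Fin n → Bool,
            (if f x then (1 : ℝ) else -1) * (if x i then (1 : ℝ) else -1)) / 2 ^ n) ^ 2)
          * (1 - h2 ε)) := by
  refine ⟨fun n f ε h0 h1 => coordinatewise f ε h0 h1, fun n f ε h0 h1 => ?_⟩
  have h := coordinatewise_refined f ε h0 h1
  have e1 : Vale.Agent.P047.fhat (toR f) ∅
      = (∑ x : Fin n → Bool, (if f x then (1 : ℝ) else -1)) / 2 ^ n := by
    simp [Vale.Agent.P047.fhat, toR, Vale.Agent.P047.sg]
  have e2 : ∀ i : Fin n, Vale.Agent.P047.fhat (toR f) {i}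
      = (∑ x : Fin n → Bool,
          (if f x then (1 : ℝ) else -1) * (if x i then (1 : ℝ) else -1)) / 2 ^ n := by
    intro i
    simp [Vale.Agent.P047.fhat, toR, Vale.Agent.P047.sg]
  rw [e1] at h
  simp_rw [e2] at h
  exact h

end Vale.Agent.Results.P322.Coordinatewise
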