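import Mathlib
import Vale.Agent.P322.ParMain

namespace Vale.Agent.Results.P322.Parities

open Finset Vale.Agent.P322

/-- **All-parities form of the coordinatewise Courtade-Kumar inequality, for all Boolean functions.**
The cube is `Fin n → Bool` (`true ↦ 1`, `false ↦ -1`); `X` is uniform, `Z` is the noise
(`noise ε z` is the probability of the pattern `z`, `z i = false` meaning a flip), `Y_i = X_i Z_i`;
`jointPar f ε S u v = P(f(X) = u, ∏_{i ∈ S} Y_i = v)`, `joint f ε i u v = P(f(X) = u, Y_i = v)`;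
`mutualInfo` is the mutual information in bits of a joint law on `Bool × Bool`; `h2` is the binary
entropy in bits.

* (1) `∑_{S ≠ ∅} I(f(X); ∏_{i ∈ S} Y_i) ≤ 1 - h2 ε` for every Boolean `f`, `0 ≤ ε ≤ 1/2`;
* (2) `∑ i, I(f(X); Y_i) ≤ 1 - h2 ε` for every Boolean `f`. -/
theorem result :
    (∀ (n : ℕ) (f : (Fin n → Bool) → Bool) (ε : ℝ), 0 ≤ ε → ε ≤ 1 / 2 →
      ∑ S ∈ (Finset.univ : Finset (Finset (Fin n))).erase ∅, mutualInfo (jointPar f ε S)
        ≤ 1 - h2 ε) ∧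
    (∀ (n : ℕ) (f : (Fin n → Bool) → Bool) (ε : ℝ), 0 ≤ ε → ε ≤ 1 / 2 →
      ∑ i, mutualInfo (joint f ε i) ≤ 1 - h2 ε) :=
  ⟨fun _ f ε h0 h1 => parities f ε h0 h1, fun _ f ε h0 h1 => coordinatewise f ε h0 h1⟩

end Vale.Agent.Results.P322.Parities
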