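import Mathlib
import Vale.Agent.P322.PerPar

namespace Vale.Agent.Results.P322.PerParity

open Finset Vale.Agent.P322

/-- **Sharp bound for every single parity of the noisy vector, for all Boolean functions.**
The cube is `Fin n → Bool` (`true ↦ 1`, `false ↦ -1`); `X` is uniform, `Z` is the noise
(`noise ε z` is the probability of the pattern `z`, `z i = false` meaning a flip), `Y_i = X_i Z_i`;
`jointPar f ε S u v = P(f(X) = u, ∏_{i ∈ S} Y_i = v)`, `joint f ε i u v = P(f(X) = u, Y_i = v)`;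
`mutualInfo` is the mutual information in bits of a joint law on `Bool × Bool`; `h2` is the binary
entropy in bits.

* (1) `(1 - (E f)^2) I(f(X); ∏_{i ∈ S} Y_i) ≤ \hat f(S)^2 (1 - h2 ((1 - (1 - 2ε)^|S|) / 2))` for every
  nonempty `S`;
* (2) `∑_{S ≠ ∅} I(f(X); ∏_{i ∈ S} Y_i) ≤ 1 - h2 ε`;
* (3) `∑ i, I(f(X); Y_i) ≤ 1 - h2 ε`. -/
theorem result :
    (∀ (n : ℕ) (f : (Fin n → Bool) → Bool) (ε : ℝ) (S : Finset (Fin n)), 0 ≤ ε → ε ≤ 1 / 2 →
      S ≠ ∅ →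
      (1 - ((∑ x : Fin n → Bool, (if f x then (1 : ℝ) else -1)) / 2 ^ n) ^ 2)
          * mutualInfo (jointPar f ε S)
        ≤ ((∑ x : Fin n → Bool,
            (if f x then (1 : ℝ) else -1) * ∏ i ∈ S, (if x i then (1 : ℝ) else -1)) / 2 ^ n) ^ 2
          * (1 - h2 ((1 - (1 - 2 * ε) ^ S.card) / 2))) ∧
    (∀ (n : ℕ) (f : (Fin n → Bool) → Bool) (ε : ℝ), 0 ≤ ε → ε ≤ 1 / 2 →
      ∑ S ∈ (Finset.univ : Finset (Finset (Fin n))).erase ∅, mutualInfo (jointPar f ε S)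
        ≤ 1 - h2 ε) ∧
    (∀ (n : ℕ) (f : (Fin n → Bool) → Bool) (ε : ℝ), 0 ≤ ε → ε ≤ 1 / 2 →
      ∑ i, mutualInfo (joint f ε i) ≤ 1 - h2 ε) := by
  refine ⟨fun n f ε S h0 h1 hS => ?_, fun _ f ε h0 h1 => parities f ε h0 h1,
    fun _ f ε h0 h1 => coordinatewise f ε h0 h1⟩
  have h := perParity f ε h0 h1 S hS
  have e1 : Vale.Agent.P047.fhat (toR f) ∅
      = (∑ x : Fin n → Bool, (if f x then (1 : ℝ) else -1)) / 2 ^ n := by
    simp [Vale.Agent.P047.fhat, toR, Vale.Agent.P047.sg]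
  have e2 : Vale.Agent.P047.fhat (toR f) S
      = (∑ x : Fin n → Bool,
          (if f x then (1 : ℝ) else -1) * ∏ i ∈ S, (if x i then (1 : ℝ) else -1)) / 2 ^ n := by
    simp [Vale.Agent.P047.fhat, toR, Vale.Agent.P047.sg]
  rw [e1, e2] at h
  exact h

end Vale.Agent.Results.P322.PerParity
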